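import Vale.Agent.P281.H716.S.Defs

/-! P281: the definitions of the final statement about rational curves. -/

namespace Vale.Agent.P281.S

open scoped Manifold ContDiff Topology ComplexOrder
open Filter Vale.Agent.P272.K

noncomputable section

variable {X F : Type} [TopologicalSpace X] [TopologicalSpace F] {n q : ℕ}

/-- The curve `s ↦ c (s, 0)` meets the divisor `D` at `s = t` with multiplicity `l`. -/
def Ord (n : ℕ) [ChartedSpace (Cm n) X] (D : Set X) (c : ℂ × Cm q → X) (t : ℂ) (l : ℕ) : Prop :=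
  ∃ (g : X → ℂ) (u : ℂ → ℂ), Eqn n D g (c (t, 0)) ∧ AnalyticAt ℂ u t ∧ u t ≠ 0 ∧
    ∀ᶠ s in 𝓝 t, g (c (s, 0)) = (s - t) ^ l * u s

/-- `c` is holomorphic near `a`. -/
def HolC (n : ℕ) [ChartedSpace (Cm n) X] (c : ℂ × Cm q → X) (a : ℂ × Cm q) : Prop :=
  ContMDiffAt 𝓘(ℂ, ℂ × Cm q) 𝓘(ℂ, Cm n) ω c a

/-- The value at `a` of the differential of `c` at `(0, 0)`. -/
def dC (n : ℕ) [ChartedSpace (Cm n) X] (c : ℂ × Cm q → X) (a : ℂ × Cm q) : Cm n :=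
  (mfderiv 𝓘(ℂ, ℂ × Cm q) 𝓘(ℂ, Cm n) c (0, 0) : (ℂ × Cm q) →L[ℂ] Cm n) a

/-- `c (t, u)`, `t ∈ ℂ ∪ {∞}`, `u ∈ ℂ^q` close to `0`, is a holomorphic family of rational curves in
`X` (near `t = ∞` it is `c' (1/t, u)`), and `Δ · C < 2`, where `C` is the curve `u = 0` of the family
(`l D t` and `l' D` are the intersection numbers of `D` and `C` at the points `t` and `∞`). -/
def RatCurve (n : ℕ) [ChartedSpace (Cm n) X] (Δ : Set X → ℝ) (c c' : ℂ × Cm q → X) : Prop :=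
  (∀ t, HolC n c (t, 0)) ∧ HolC n c' (0, 0) ∧
  (∀ t, t ≠ 0 → ∀ᶠ w in 𝓝 ((t, 0) : ℂ × Cm q), c w = c' (w.1⁻¹, w.2)) ∧
  ∃ (Q : Finset ℂ) (l : Set X → ℂ → ℕ) (l' : Set X → ℕ),
    (∀ D, Δ D ≠ 0 → (∀ t, t ∉ Q → l D t = 0) ∧ (∀ t, Ord n D c t (l D t)) ∧
      Ord n D c' 0 (l' D)) ∧
    ∑ᶠ D, Δ D * (∑ t ∈ Q, (l D t : ℝ) + l' D) < 2

/-- Through the point `x` of the hypersurface `g = 0`, not on `Δ`, passes a rational curve `C` with
`Δ · C < 2`, a member of a family of rational curves filling `g = 0` (to first order at `x`), whose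
tangent at `x` is in `g = 0` and in the kernels of `β` and of the differential of the map `[H]`. -/
def RatAt (n : ℕ) [ChartedSpace (Cm n) X] (Δ : Set X → ℝ) {N : ℕ} (H : Fin N → X → ℂ) (g : X → ℂ)
    (β : Chart n X → Cm n → Matrix (Fin n) (Fin n) ℂ) (x : X) : Prop :=
  ∃ (q : ℕ) (c c' : ℂ × Cm q → X) (v : Cm n), RatCurve n Δ c c' ∧ c (0, 0) = x ∧
    (∀ D, Δ D ≠ 0 → x ∉ D) ∧ (∀ w, dv n g x w = 0 → ∃ a, dC n c a = w) ∧
    dC n c (1, 0) = v ∧ v ≠ 0 ∧ dv n g x v = 0 ∧ PKer n H x v ∧ FKer n β x v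

/-- `S b` are sections of `m K_X + ∑ k(D) D`, `ι : F → X` is the immersion of a fibre, not contained in
the base locus, on a dense subset of which `β > 0` (`β ≥ 0` is a closed form on `X`).  Near every point
of `F`, `S b = (∏ g_i ^ a_i) H_b` in a frame of `m K_X + ∑ k(D) D` (`e D` are local equations of the
divisors `D`), where the `H_b` have no common zero and the hypersurfaces `g_i = 0` of `X` are
transversal to `F`: the fixed divisor is locally `∑ a_i {g_i = 0}`.  Moreover `g_i = 0` is covered by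
rational curves contracted by `([H], β)`. -/
def HasRatFix (n d m : ℕ) [ChartedSpace (Cm n) X] [ChartedSpace (Cm d) F] (k : Set X → ℕ)
    (Δ : Set X → ℝ) (ι : F → X) {N : ℕ} (S : Fin N → X → ℂ) : Prop :=
  ∃ β : Chart n X → Cm n → Matrix (Fin n) (Fin n) ℂ, H167.IsSemiKahler β ∧
    (∃ t, (∀ D, k D ≠ 0 → ι t ∉ D) ∧ ∃ b, S b (ι t) ≠ 0) ∧
    Dense {t | ∃ e, At e (ι t) ∧ (β e (e (ι t))).PosDef} ∧
    ∀ t : F, ∃ (T : Finset (Set X)) (e : Set X → X → ℂ) (r : ℕ) (g : Fin r → X → ℂ)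
      (a : Fin r → ℕ) (H : Fin N → X → ℂ),
      (∀ D, k D ≠ 0 → D ∈ T) ∧ (∀ D ∈ T, Eqn n D (e D) (ι t)) ∧
      (∀ i, Hol n (g i) (ι t) ∧ J.dif (Cm d) (fun s => g i (ι s)) t ≠ 0) ∧
      (∀ b, Hol n (H b) (ι t)) ∧ (∃ b, H b (ι t) ≠ 0) ∧
      ∀ᶠ z in 𝓝 (ι t), Fr n m k T e S g a H (ι t) z z ∧
        ∀ i, g i z = 0 → ∃ᶠ z' in 𝓝 z, g i z' = 0 ∧ RatAt n Δ H (g i) β z'

end

end Vale.Agent.P281.S
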