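import Vale.Agent.P281.H167.S.Rat
import Vale.Agent.P281.H167.RC.Defs

/-! P281: the short form of the hypothesis of theorem RC. -/

namespace Vale.Agent.P281.S

open scoped Manifold ContDiff Topology ComplexOrder
open Filter Vale.Agent.P272.K

variable {X F : Type} [TopologicalSpace X] [TopologicalSpace F]

theorem ratAt_of {n : ℕ} [ChartedSpace (Cm n) X] {Δ : Set X → ℝ} {N : ℕ} {H : Fin N → X → ℂ}
    {g : X → ℂ} {β : Chart n X → Cm n → Matrix (Fin n) (Fin n) ℂ} {x : X}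
    (h : RatAt n Δ H g β x) : H167.RatAt n Δ H g β x := by
  obtain ⟨q, c, c', v, ⟨h1, h2, h3, h4⟩, h⟩ := h
  exact ⟨q, c, c', v, ⟨h1, h2, h3, h4⟩, h⟩

theorem ratFix_of {n d m : ℕ} [ChartedSpace (Cm n) X] [ChartedSpace (Cm d) F] {k : Set X → ℕ}
    {Δ : Set X → ℝ} {ι : F → X} {N : ℕ} {S : Fin N → X → ℂ} (h : HasRatFix n d m k Δ ι S) :
    ∃ β : Chart n X → Cm n → Matrix (Fin n) (Fin n) ℂ, H167.IsSemiKahler β ∧
      H167.IsRatFix n d m k Δ ι S β := by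
  obtain ⟨β, hβ, h1, h2, h3⟩ := h
  refine ⟨β, hβ, h1, h2, fun t => ?_⟩
  obtain ⟨T, e, r, g, a, H, k1, k2, k3, k4, k5, k6⟩ := h3 t
  refine ⟨T, e, r, g, a, H, k1, k2, k3, k4, k5, ?_⟩
  filter_upwards [k6] with z hz
  exact ⟨hz.1, fun i hi => (hz.2 i hi).mono fun z' hz' => ⟨hz'.1, ratAt_of hz'.2⟩⟩

end Vale.Agent.P281.S
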